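import Vale.Agent.P030.H866.Final
import Vale.Agent.P030.H905.PotOf

/-!
# P030, route N: `StAR` from the wall data with general potentials
-/

open MeasureTheory Finset Matrix Filter Topology Set

namespace Vale.Agent.P030.H905

open Vale.Agent.P030.T
open Vale.Agent.P030.H265 (WallData)
open Vale.Agent.P030.H866 (DetB Loc Tot Qm Sc sigEquiv stAR_of_det)

/-- the determinant bound for general potentials, from condition (C) on the walls -/
theorem detB_of_pots {κ ι : Type} [DecidableEq ι] [Fintype ι] [Fintype κ] (G : WallData κ ι 8)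
    (D0 : ℕ) (μ : Fin 8 → Pot) (γ : Fin 8 → ℝ) (hC : G.Cond (WtP (fun _ => D0) μ γ)) :
    DetB G (WtP (fun _ => D0) μ γ) D0 (E0P (fun _ => D0) μ γ) := by
  intro R1 ε hε
  filter_upwards [nodes_boundP G (fun _ => D0) (fun _ _ _ => le_rfl) μ γ hC hε] with s hs a v _
  exact hs (Fin (D0 * s) × Fin 8) (Fintype.card_congr (sigEquiv (D0 * s))) a v

/-- **`StAR` from the wall data, general potentials** -/
theorem stAR_of_pots {κ ι : Type} [DecidableEq ι] [Fintype ι] [Fintype κ]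
    (P : Par) (c0 : ℕ) (hcard : ∑ g : Gp, P.ht g = 8 * P.D0) (hD0 : 0 < P.D0)
    (r : Gp → ℝ) (hr : ∀ g, 0 < r g) (hr1 : ∀ g, r g < 1) (T : Tot P r)
    (R : Matrix (Fin 8) (Fin 8) ℂ) (hR : R.det ≠ 0) (G : WallData κ ι 8)
    (μ : Fin 8 → Pot) (γ : Fin 8 → ℝ)
    (hC : G.Cond (WtP (fun _ => P.D0) μ γ)) (ω : Gp → ℝ)
    (hloc : ∀ g, ∃ B : ℝ, ∀ t : ℂ, ‖t‖ = r g →
      Loc G (WtP (fun _ => P.D0) μ γ) B (ω g) (Sc g.cusp t)
        (R *ᵥ ∑ g', ((T.al g g' : ℝ) : ℂ) • AR.tupC g' t)) :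
    StAR P c0 (E0P (fun _ => P.D0) μ γ - Qm P r ω) :=
  stAR_of_det P c0 hcard hD0 r hr hr1 T R hR G (continuous_WtP _ μ γ)
    (detB_of_pots G P.D0 μ γ hC) ω hloc

end Vale.Agent.P030.H905
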